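import Vale.Agent.P202.Mix.TeiA
import Mathlib.RingTheory.ReesAlgebra
import Mathlib.FieldTheory.PerfectClosure

/-!
Perfect ideals `J` of a perfect ring `C` of characteristic `p` (`J ^ p = J ^ [p]`) and the ideals
`W(J)` of the Witt vectors of `C`.
-/

namespace Vale.Agent.P177.Pf

open WittVector Polynomial

universe u

/-! ### Witt vectors with coefficients in a subring -/

section Sub

variable (p : ℕ) [hp : Fact (Nat.Prime p)] {D : Type u} [CommRing D]

/-- the Witt vectors with coefficients in a subring. -/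
noncomputable def wsub (S : Subring D) : Subring (WittVector p D) :=
  (WittVector.map (p := p) S.subtype).range

theorem mem_wsub (S : Subring D) (w : WittVector p D) :
    w ∈ wsub p S ↔ ∀ n, w.coeff n ∈ S := by
  constructor
  · rintro ⟨v, rfl⟩ n
    rw [WittVector.map_coeff]
    exact (v.coeff n).2
  · intro h
    refine ⟨WittVector.mk p fun n => ⟨w.coeff n, h n⟩, ?_⟩
    ext n
    rw [WittVector.map_coeff]
    rfl

/-- the elements with a `p`-power in a subring. -/
def rootCl [CharP D p] (S : Subring D) : Subring D where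
  carrier := {x | ∃ n : ℕ, x ^ p ^ n ∈ S}
  mul_mem' := by
    rintro x y ⟨n, hn⟩ ⟨m, hm⟩
    refine ⟨n + m, ?_⟩
    rw [mul_pow, pow_add, pow_mul, mul_comm (p ^ n), pow_mul y]
    exact S.mul_mem (S.pow_mem hn _) (S.pow_mem hm _)
  one_mem' := ⟨0, by simp⟩
  add_mem' := by
    rintro x y ⟨n, hn⟩ ⟨m, hm⟩
    refine ⟨n + m, ?_⟩
    rw [add_pow_char_pow, pow_add, pow_mul, mul_comm (p ^ n), pow_mul y]
    exact S.add_mem (S.pow_mem hn _) (S.pow_mem hm _)
  zero_mem' := ⟨0, by simp⟩
  neg_mem' := by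
    rintro x ⟨n, hn⟩
    refine ⟨n, ?_⟩
    rw [neg_pow]
    refine S.mul_mem ?_ hn
    rcases neg_one_pow_eq_or D (p ^ n) with h | h <;> rw [h]
    · exact S.one_mem
    · exact S.neg_mem S.one_mem

theorem mem_rootCl [CharP D p] (S : Subring D) (x : D) :
    x ∈ rootCl p S ↔ ∃ n : ℕ, x ^ p ^ n ∈ S := Iff.rfl

theorem pow_mem_rootCl [CharP D p] (S : Subring D) (x : D) (n : ℕ) :
    x ^ p ^ n ∈ rootCl p S ↔ x ∈ rootCl p S := by
  constructor
  · rintro ⟨m, hm⟩
    refine ⟨n + m, ?_⟩
    rwa [pow_add, pow_mul]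
  · exact fun h => (rootCl p S).pow_mem h _

end Sub

/-! ### Perfect ideals -/

variable (p : ℕ) [hp : Fact (Nat.Prime p)] {C : Type u} [CommRing C] [CharP C p]
  [PerfectRing C p]

/-- A perfect ideal: every product of `p` elements of `J` is the `p`-th power of an element
of `J`. -/
def IsPf (J : Ideal C) : Prop := J ^ p ≤ J.map (frobenius C p)

/-- the ideal `J ^ [p^n]` of the `p^n`-th powers of the elements of `J`. -/
noncomputable def frobN (n : ℕ) (J : Ideal C) : Ideal C := J.map (iterateFrobenius C p n)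

theorem mem_frobN (n : ℕ) (J : Ideal C) (x : C) :
    x ∈ frobN p n J ↔ ∃ b ∈ J, b ^ p ^ n = x := by
  rw [frobN, Ideal.mem_map_iff_of_surjective (iterateFrobenius C p n)
    (iterateFrobeniusEquiv C p n).surjective]
  rfl

theorem mem_frobN_iff (n : ℕ) (J : Ideal C) (x : C) :
    x ∈ frobN p n J ↔ (iterateFrobeniusEquiv C p n).symm x ∈ J := by
  rw [mem_frobN]
  constructor
  · rintro ⟨b, hb, rfl⟩
    rwa [← iterateFrobeniusEquiv_def, RingEquiv.symm_apply_apply]
  · intro h
    exact ⟨_, h, by rw [← iterateFrobeniusEquiv_def, RingEquiv.apply_symm_apply]⟩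

theorem pow_mem_frobN (n : ℕ) (J : Ideal C) (x : C) : x ^ p ^ n ∈ frobN p n J ↔ x ∈ J := by
  rw [mem_frobN_iff, ← iterateFrobeniusEquiv_def, RingEquiv.symm_apply_apply]

omit [PerfectRing C p] in
theorem frobN_succ (n : ℕ) (J : Ideal C) :
    frobN p (n + 1) J = frobN p n (J.map (frobenius C p)) := by
  rw [frobN, frobN, Ideal.map_map]
  congr 1
  ext x
  rw [RingHom.comp_apply, iterateFrobenius_def, iterateFrobenius_def, frobenius_def, ← pow_mul,
    pow_succ']

theorem frobN_zero (J : Ideal C) : frobN p 0 J = J := by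
  ext x
  rw [mem_frobN]
  simp

theorem IsPf.pow_le {J : Ideal C} (hJ : IsPf p J) (n : ℕ) : J ^ p ^ n ≤ frobN p n J := by
  induction n with
  | zero => rw [pow_zero, pow_one, frobN_zero]
  | succ n ih =>
    rw [pow_succ, pow_mul]
    calc (J ^ p ^ n) ^ p ≤ (frobN p n J) ^ p := Ideal.pow_right_mono ih _
      _ = frobN p n (J ^ p) := by rw [frobN, frobN, Ideal.map_pow]
      _ ≤ frobN p n (J.map (frobenius C p)) := Ideal.map_mono hJ
      _ = frobN p (n + 1) J := (frobN_succ p n J).symm

/-! ### the Rees ring -/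

/-- the perfection of the Rees algebra of `J` in the perfection of `C[T]`. -/
noncomputable def rees (J : Ideal C) : Subring (PerfectClosure C[X] p) :=
  rootCl p ((reesAlgebra J).toSubring.map (PerfectClosure.of C[X] p))

theorem frobenius_poly_injective : Function.Injective (frobenius C[X] p) := by
  intro x y h
  rw [frobenius_def, frobenius_def, ← Polynomial.map_frobenius_expand,
    ← Polynomial.map_frobenius_expand] at h
  exact Polynomial.expand_injective hp.out.pos
    (Polynomial.map_injective _ (frobeniusEquiv C p).injective h)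

theorem injective_of : Function.Injective (PerfectClosure.of C[X] p) := by
  intro x y h
  rw [PerfectClosure.of_apply, PerfectClosure.of_apply, PerfectClosure.mk_eq_iff] at h
  obtain ⟨z, hz⟩ := h
  simp only [zero_add] at hz
  exact (frobenius_poly_injective p).iterate z hz

omit [PerfectRing C p] in
theorem C_mem_rees (J : Ideal C) (a : C) :
    PerfectClosure.of C[X] p (Polynomial.C a) ∈ rees p J := by
  refine ⟨0, ?_⟩
  rw [pow_zero, pow_one]
  refine ⟨Polynomial.C a, ?_, rfl⟩
  exact Subalgebra.algebraMap_mem (reesAlgebra J) a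

theorem mem_rees_iff {J : Ideal C} (hJ : IsPf p J) (a : C) :
    PerfectClosure.of C[X] p (X * Polynomial.C a) ∈ rees p J ↔ a ∈ J := by
  constructor
  · rintro ⟨n, f, hf, h⟩
    rw [← map_pow] at h
    have h2 := injective_of p h
    have h3 : f.coeff (p ^ n) ∈ J ^ (p ^ n) := hf (p ^ n)
    rw [h2, mul_pow, ← Polynomial.C_pow, mul_comm, Polynomial.coeff_C_mul_X_pow, if_pos rfl] at h3
    exact (pow_mem_frobN p n J a).1 (hJ.pow_le p n h3)
  · intro h
    refine ⟨0, ?_⟩
    rw [pow_zero, pow_one]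
    refine ⟨X * Polynomial.C a, ?_, rfl⟩
    intro i
    rw [mul_comm, ← pow_one (X : C[X]), Polynomial.coeff_C_mul_X_pow]
    split_ifs with hi
    · rw [hi, pow_one]; exact h
    · exact Ideal.zero_mem _

/-! ### the ideals `W(J)` -/

/-- the embedding of the Witt vectors of `C` in those of the perfection of `C[T]`. -/
noncomputable def wemb : WittVector p C →+* WittVector p (PerfectClosure C[X] p) :=
  WittVector.map ((PerfectClosure.of C[X] p).comp Polynomial.C)

omit [PerfectRing C p] in
theorem wemb_mem (J : Ideal C) (w : WittVector p C) : wemb p w ∈ wsub p (rees p J) := by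
  rw [mem_wsub]
  intro n
  rw [wemb, WittVector.map_coeff]
  exact C_mem_rees p J _

theorem teich_mul_wemb_mem_iff {J : Ideal C} (hJ : IsPf p J) (w : WittVector p C) :
    WittVector.teichmuller p (PerfectClosure.of C[X] p X) * wemb p w ∈ wsub p (rees p J) ↔
      ∀ n, w.coeff n ∈ frobN p n J := by
  rw [mem_wsub]
  refine forall_congr' fun n => ?_
  rw [P202.Mix.teichmuller_mul_coeff, wemb, WittVector.map_coeff, mem_frobN_iff]
  set b := (iterateFrobeniusEquiv C p n).symm (w.coeff n) with hb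
  have hw : w.coeff n = b ^ p ^ n := by
    rw [hb, ← iterateFrobeniusEquiv_def, RingEquiv.apply_symm_apply]
  rw [hw, map_pow, RingHom.comp_apply, ← mul_pow, ← map_mul, rees, pow_mem_rootCl]
  exact mem_rees_iff p hJ b

/-- `W(J)`, the Witt vectors `∑ p^n [a_n]` with all `a_n` in the perfect ideal `J`. -/
noncomputable def WJ (J : Ideal C) (hJ : IsPf p J) : Ideal (WittVector p C) where
  carrier := {w | ∀ n, w.coeff n ∈ frobN p n J}
  add_mem' := by
    intro a b ha hb
    rw [Set.mem_ofPred_eq, ← teich_mul_wemb_mem_iff p hJ] at ha hb ⊢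
    rw [map_add, mul_add]
    exact Subring.add_mem _ ha hb
  zero_mem' := by
    rw [Set.mem_ofPred_eq, ← teich_mul_wemb_mem_iff p hJ]
    rw [map_zero, mul_zero]
    exact Subring.zero_mem _
  smul_mem' := by
    intro a b hb
    rw [Set.mem_ofPred_eq, ← teich_mul_wemb_mem_iff p hJ] at hb ⊢
    rw [smul_eq_mul, map_mul, mul_left_comm]
    exact Subring.mul_mem _ (wemb_mem p J a) hb

variable {p}

theorem mem_WJ {J : Ideal C} {hJ : IsPf p J} {w : WittVector p C} :
    w ∈ WJ p J hJ ↔ ∀ n, w.coeff n ∈ frobN p n J := Iff.rfl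

theorem mem_WJ' {J : Ideal C} {hJ : IsPf p J} {w : WittVector p C} :
    w ∈ WJ p J hJ ↔ ∀ n, (iterateFrobeniusEquiv C p n).symm (w.coeff n) ∈ J :=
  forall_congr' fun n => mem_frobN_iff p n J _

theorem teich_mem_WJ {J : Ideal C} {hJ : IsPf p J} {a : C} :
    WittVector.teichmuller p a ∈ WJ p J hJ ↔ a ∈ J := by
  rw [mem_WJ]
  constructor
  · intro h
    have := h 0
    rwa [WittVector.teichmuller_coeff_zero, frobN_zero] at this
  · intro h n
    rcases Nat.eq_zero_or_pos n with rfl | hn
    · rwa [WittVector.teichmuller_coeff_zero, frobN_zero]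
    · rw [WittVector.teichmuller_coeff_pos p a n hn]
      exact Ideal.zero_mem _

theorem p_mul_mem_WJ {J : Ideal C} {hJ : IsPf p J} {w : WittVector p C} :
    (p : WittVector p C) * w ∈ WJ p J hJ ↔ w ∈ WJ p J hJ := by
  rw [mem_WJ', mem_WJ']
  have key : ∀ n, ((p : WittVector p C) * w).coeff (n + 1) = w.coeff n ^ p := by
    intro n
    rw [mul_comm, WittVector.mul_charP_coeff_succ]
  have h0 : ((p : WittVector p C) * w).coeff 0 = 0 := by
    rw [mul_comm, WittVector.mul_charP_coeff_zero]
  have e : ∀ n, (iterateFrobeniusEquiv C p (n + 1)).symm (w.coeff n ^ p) =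
      (iterateFrobeniusEquiv C p n).symm (w.coeff n) := by
    intro n
    rw [RingEquiv.symm_apply_eq, iterateFrobeniusEquiv_def, pow_succ, pow_mul,
      ← iterateFrobeniusEquiv_def C p n, RingEquiv.apply_symm_apply]
  constructor
  · intro h n
    have := h (n + 1)
    rwa [key, e] at this
  · intro h n
    rcases n with _ | n
    · rw [h0, map_zero]; exact Ideal.zero_mem _
    · rw [key, e]; exact h n

theorem p_pow_mul_mem_WJ {J : Ideal C} {hJ : IsPf p J} {w : WittVector p C} (N : ℕ) :
    (p : WittVector p C) ^ N * w ∈ WJ p J hJ ↔ w ∈ WJ p J hJ := by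
  induction N with
  | zero => rw [pow_zero, one_mul]
  | succ N ih => rw [pow_succ', mul_assoc, p_mul_mem_WJ, ih]

/-- an element of `W(J)` with zero coordinate `0` is `p` times an element of `W(J)`. -/
theorem exists_of_coeff_zero {J : Ideal C} {hJ : IsPf p J} {w : WittVector p C}
    (hw : w ∈ WJ p J hJ) (h0 : w.coeff 0 = 0) :
    ∃ v ∈ WJ p J hJ, w = (p : WittVector p C) * v := by
  have h : (p : WittVector p C) ^ 1 ∣ w - 0 := by
    rw [P202.Mix.dvd_sub_iff]
    intro i hi
    obtain rfl : i = 0 := by omega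
    rw [h0, WittVector.zero_coeff]
  rw [pow_one, sub_zero] at h
  obtain ⟨v, rfl⟩ := h
  exact ⟨v, p_mul_mem_WJ.1 hw, rfl⟩

/-- every element of `W(J)` is `[a] + p v` with `a` in `J` and `v` in `W(J)`. -/
theorem exists_teich_add {J : Ideal C} {hJ : IsPf p J} {w : WittVector p C}
    (hw : w ∈ WJ p J hJ) :
    w.coeff 0 ∈ J ∧ ∃ v ∈ WJ p J hJ,
      w = WittVector.teichmuller p (w.coeff 0) + (p : WittVector p C) * v := by
  have ha : w.coeff 0 ∈ J := by
    have := mem_WJ.1 hw 0
    rwa [frobN_zero] at this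
  have hm : w - WittVector.teichmuller p (w.coeff 0) ∈ WJ p J hJ :=
    Ideal.sub_mem _ hw (teich_mem_WJ.2 ha)
  have h0 : (w - WittVector.teichmuller p (w.coeff 0)).coeff 0 = 0 := by
    have : WittVector.constantCoeff (w - WittVector.teichmuller p (w.coeff 0)) = 0 := by
      rw [map_sub, sub_eq_zero]
      exact (WittVector.teichmuller_coeff_zero p (w.coeff 0)).symm
    exact this
  obtain ⟨v, hv, h⟩ := exists_of_coeff_zero hm h0
  exact ⟨ha, v, hv, by rw [← h]; ring⟩

/-- `W(J)` is `p`-adically closed. -/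
theorem mem_WJ_of_forall {J : Ideal C} {hJ : IsPf p J} {w : WittVector p C}
    (h : ∀ N : ℕ, ∃ v ∈ WJ p J hJ, (p : WittVector p C) ^ N ∣ w - v) : w ∈ WJ p J hJ := by
  rw [mem_WJ]
  intro n
  obtain ⟨v, hv, hd⟩ := h (n + 1)
  rw [P202.Mix.coeff_eq_of_dvd_sub hd (Nat.lt_succ_self n)]
  exact mem_WJ.1 hv n

theorem WJ_mono {J J' : Ideal C} {hJ : IsPf p J} {hJ' : IsPf p J'} (h : J ≤ J') :
    WJ p J hJ ≤ WJ p J' hJ' := by
  intro w hw
  rw [mem_WJ'] at hw ⊢
  exact fun n => h (hw n)

omit [PerfectRing C p] in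
theorem isPf_top : IsPf p (⊤ : Ideal C) := by
  rw [IsPf, Ideal.map_top]
  exact le_top

theorem WJ_top : WJ p (⊤ : Ideal C) isPf_top = ⊤ := by
  rw [eq_top_iff]
  intro w _
  rw [mem_WJ']
  exact fun n => Submodule.mem_top

/-- a divisibility criterion: `p ^ N` divides `w` in `W(J)` iff it does in `W(C)`. -/
theorem exists_of_dvd {J : Ideal C} {hJ : IsPf p J} {w : WittVector p C} (N : ℕ)
    (hw : w ∈ WJ p J hJ) (h : (p : WittVector p C) ^ N ∣ w) :
    ∃ v ∈ WJ p J hJ, w = (p : WittVector p C) ^ N * v := by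
  obtain ⟨v, rfl⟩ := h
  exact ⟨v, (p_pow_mul_mem_WJ N).1 hw, rfl⟩

/-- criterion: `J` is perfect iff products of `p` elements of `J` have their `p`-th root
in `J`. -/
theorem isPf_iff {J : Ideal C} : IsPf p J ↔ ∀ f : Fin p → C, (∀ i, f i ∈ J) →
    (frobeniusEquiv C p).symm (∏ i, f i) ∈ J := by
  have hm : ∀ x : C, x ∈ J.map (frobenius C p) ↔ (frobeniusEquiv C p).symm x ∈ J := by
    intro x
    rw [Ideal.mem_map_iff_of_surjective (frobenius C p) (frobeniusEquiv C p).surjective]
    constructor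
    · rintro ⟨b, hb, rfl⟩
      rwa [frobeniusEquiv_symm_apply_frobenius]
    · intro h
      exact ⟨_, h, by rw [frobenius_apply_frobeniusEquiv_symm]⟩
  constructor
  · intro h f hf
    rw [← hm]
    apply h
    have := Ideal.prod_mem_prod (s := Finset.univ) (I := fun _ : Fin p => J) (x := f)
      fun i _ => hf i
    simpa using this
  · intro h
    rw [IsPf, Submodule.pow_eq_span_pow_set, Submodule.span_le]
    intro x hx
    rw [Set.mem_pow] at hx
    obtain ⟨f, rfl⟩ := hx
    rw [SetLike.mem_coe, hm]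
    have := h (fun i => (f i : C)) fun i => (f i).2
    rwa [← List.prod_ofFn] at this

end Vale.Agent.P177.Pf
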